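import Vale.Agent.P193.MathlibUsed
import Vale.Agent.P193.Bdl.B3

namespace Vale.Agent.Results.P193.BooneHigman

/-- The Boone-Higman conjecture: let `G` be a group generated by finitely many elements
`f 0, ..., f (n - 1)`, such that the set of words in these generators and their inverses that
represent the identity of `G` is decidable. Then `G` embeds in a finitely presented simple
group. -/
theorem result {n : ℕ} {G : Type*} [Group G] (f : Fin n → G)
    (hf : Subgroup.closure (Set.range f) = ⊤)
    (hdec : ComputablePred fun w : List (Fin n × Bool) =>
      FreeGroup.lift f (FreeGroup.mk w) = 1) :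
    ∃ (K : Type) (_ : Group K), IsSimpleGroup K ∧ Group.IsFinitelyPresented K ∧
      ∃ ψ : G →* K, Function.Injective ψ :=
  Vale.Agent.P193.BH.booneHigman f hf hdec

end Vale.Agent.Results.P193.BooneHigman
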